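import Mathlib

/-! The Prékopa–Leindler inequality in finite dimension. -/

set_option autoImplicit false

namespace Crest.Agent.Lib.PL

open MeasureTheory Set
open scoped ENNReal

/-- One-dimensional Brunn–Minkowski inequality for compact sets. -/
lemma bm_compact {t : ℝ} (ht0 : 0 < t) (ht1 : t < 1) {A B C : Set ℝ} (hA : IsCompact A)
    (hB : IsCompact B) (hAn : A.Nonempty) (hBn : B.Nonempty)
    (H : ∀ x ∈ A, ∀ y ∈ B, (1 - t) * x + t * y ∈ C) :
    ENNReal.ofReal (1 - t) * volume A + ENNReal.ofReal t * volume B ≤ volume C := by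
  obtain ⟨a, ha, hamax⟩ := hA.exists_isGreatest hAn
  obtain ⟨b, hb, hbmin⟩ := hB.exists_isLeast hBn
  have ht1' : 0 < 1 - t := by linarith
  set A1 : Set ℝ := (fun x => (1 - t) * x + t * b) '' A with hA1
  set B1 : Set ℝ := (fun y => (1 - t) * a + t * y) '' B with hB1
  have vA : volume A1 = ENNReal.ofReal (1 - t) * volume A := by
    have : A1 = (fun x => x + t * b) '' ((fun x => (1 - t) • x) '' A) := by
      rw [hA1, image_image]; rfl
    rw [this, image_add_right, measure_preimage_add_right, image_smul, Measure.addHaar_smul]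
    simp [abs_of_pos ht1']
  have vB : volume B1 = ENNReal.ofReal t * volume B := by
    have : B1 = (fun x => (1 - t) * a + x) '' ((fun x => t • x) '' B) := by
      rw [hB1, image_image]; rfl
    rw [this, image_add_left, measure_preimage_add, image_smul, Measure.addHaar_smul]
    simp [abs_of_pos ht0]
  have hB1c : IsCompact B1 := hB.image (by fun_prop)
  have hdis : AEDisjoint volume A1 B1 := by
    refine measure_mono_null (t := {(1 - t) * a + t * b}) ?_ (by simp)
    rintro z ⟨⟨x, hx, rfl⟩, ⟨y, hy, hxy⟩⟩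
    have h1 : x ≤ a := hamax hx
    have h2 : b ≤ y := hbmin hy
    simp only at hxy
    simp only [mem_singleton_iff]
    have h3 := mul_le_mul_of_nonneg_left h1 ht1'.le
    have h4 := mul_le_mul_of_nonneg_left h2 ht0.le
    linarith
  rw [← vA, ← vB, ← measure_union₀ hB1c.measurableSet.nullMeasurableSet hdis]
  refine measure_mono ?_
  rintro z (⟨x, hx, rfl⟩ | ⟨y, hy, rfl⟩)
  · exact H x hx b hb
  · exact H a ha y hy

/-- One-dimensional Brunn–Minkowski inequality. -/
lemma bm_one {t : ℝ} (ht0 : 0 < t) (ht1 : t < 1) {A B C : Set ℝ} (hA : MeasurableSet A)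
    (hB : MeasurableSet B) (hAn : A.Nonempty) (hBn : B.Nonempty)
    (H : ∀ x ∈ A, ∀ y ∈ B, (1 - t) * x + t * y ∈ C) :
    ENNReal.ofReal (1 - t) * volume A + ENNReal.ofReal t * volume B ≤ volume C := by
  obtain ⟨a, ha⟩ := hAn
  obtain ⟨b, hb⟩ := hBn
  have key : ∀ S : Set ℝ, MeasurableSet S →
      volume S = ⨆ K : {K : Set ℝ // K ⊆ S ∧ IsCompact K}, volume K.1 := by
    intro S hS
    rw [hS.measure_eq_iSup_isCompact, iSup_subtype]
    simp only [iSup_and]
  have : Nonempty {K : Set ℝ // K ⊆ A ∧ IsCompact K} := ⟨⟨∅, empty_subset _, isCompact_empty⟩⟩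
  have : Nonempty {K : Set ℝ // K ⊆ B ∧ IsCompact K} := ⟨⟨∅, empty_subset _, isCompact_empty⟩⟩
  rw [key A hA, key B hB, ENNReal.mul_iSup, ENNReal.mul_iSup]
  refine ENNReal.iSup_add_iSup_le fun K L => ?_
  have := bm_compact ht0 ht1 (C := C) (K.2.2.insert a) (L.2.2.insert b) (insert_nonempty _ _)
    (insert_nonempty _ _) (fun x hx y hy => H x (insert_subset ha K.2.1 hx) y
      (insert_subset hb L.2.1 hy))
  refine le_trans ?_ this
  gcongr <;> exact subset_insert _ _

lemma layer_cake {X : Type*} [MeasurableSpace X] (μ : Measure X) [SFinite μ] {f : X → ℝ≥0∞}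
    (hf : Measurable f) :
    ∫⁻ x, f x ∂μ = ∫⁻ s in Ioi (0 : ℝ), μ {x | ENNReal.ofReal s < f x} := by
  have hS : MeasurableSet {p : ℝ × X | ENNReal.ofReal p.1 < f p.2} :=
    measurableSet_lt (by fun_prop) (by fun_prop)
  have h1 := Measure.prod_apply (μ := volume.restrict (Ioi (0 : ℝ))) (ν := μ) hS
  have h2 := Measure.prod_apply_symm (μ := volume.restrict (Ioi (0 : ℝ))) (ν := μ) hS
  refine Eq.trans ?_ (h2.symm.trans h1)
  refine lintegral_congr fun x => ?_
  rw [Measure.restrict_apply' measurableSet_Ioi]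
  rcases eq_or_ne (f x) ∞ with h | h
  · have : ((fun s : ℝ => (s, x)) ⁻¹' {p : ℝ × X | ENNReal.ofReal p.1 < f p.2}) = univ := by
      ext s; simp [h]
    rw [this, h]; simp
  · have : ((fun s : ℝ => (s, x)) ⁻¹' {p : ℝ × X | ENNReal.ofReal p.1 < f p.2}) ∩ Ioi 0 =
        Ioo 0 (f x).toReal := by
      ext s
      simp only [mem_inter_iff, mem_preimage, mem_ofPred_eq, mem_Ioi, mem_Ioo]
      constructor
      · rintro ⟨h1, h2⟩
        exact ⟨h2, (ENNReal.ofReal_lt_iff_lt_toReal h2.le h).1 h1⟩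
      · rintro ⟨h2, h1⟩
        exact ⟨(ENNReal.ofReal_lt_iff_lt_toReal h2.le h).2 h1, h2⟩
    rw [this]; simp [h]

lemma measurable_level {f : ℝ → ℝ≥0∞} :
    Measurable fun s : ℝ => volume {x | ENNReal.ofReal s < f x} := by
  refine Antitone.measurable fun s s' hs => measure_mono fun x hx => ?_
  exact lt_of_le_of_lt (ENNReal.ofReal_le_ofReal hs) hx

lemma pl_normalized {t : ℝ} (ht0 : 0 < t) (ht1 : t < 1) {f g h : ℝ → ℝ≥0∞} (hf : Measurable f)
    (hg : Measurable g) (hh : Measurable h) (hF : ⨆ x, f x = 1) (hG : ⨆ x, g x = 1)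
    (H : ∀ x y, f x ^ (1 - t) * g y ^ t ≤ h ((1 - t) * x + t * y)) :
    ENNReal.ofReal (1 - t) * (∫⁻ x, f x) + ENNReal.ofReal t * (∫⁻ x, g x) ≤ ∫⁻ x, h x := by
  have ht1' : 0 < 1 - t := by linarith
  rw [layer_cake _ hf, layer_cake _ hg, layer_cake _ hh,
    ← lintegral_const_mul _ measurable_level, ← lintegral_const_mul _ measurable_level,
    ← lintegral_add_left (measurable_level.const_mul _)]
  refine setLIntegral_mono measurable_level fun s hs => ?_
  by_cases hs1 : s < 1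
  · have hs' : ENNReal.ofReal s < 1 := by simpa using hs1
    refine bm_one ht0 ht1 (measurableSet_lt measurable_const hf)
      (measurableSet_lt measurable_const hg) ?_ ?_ fun x hx y hy => ?_
    · rw [← hF] at hs'; exact lt_iSup_iff.1 hs'
    · rw [← hG] at hs'; exact lt_iSup_iff.1 hs'
    · refine lt_of_lt_of_le ?_ (H x y)
      have h0 : ENNReal.ofReal s = ENNReal.ofReal s ^ (1 - t) * ENNReal.ofReal s ^ t := by
        rw [← ENNReal.rpow_add_of_nonneg _ _ ht1'.le ht0.le]; simp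
      rw [h0]
      exact ENNReal.mul_lt_mul (ENNReal.rpow_lt_rpow hx ht1') (ENNReal.rpow_lt_rpow hy ht0)
  · have hs' : 1 ≤ ENNReal.ofReal s := by simpa using hs1
    have e1 : {x | ENNReal.ofReal s < f x} = ∅ := by
      ext x; simp only [mem_ofPred_eq, mem_empty_iff_false, iff_false, not_lt]
      exact (le_iSup f x).trans (hF ▸ hs')
    have e2 : {x | ENNReal.ofReal s < g x} = ∅ := by
      ext x; simp only [mem_ofPred_eq, mem_empty_iff_false, iff_false, not_lt]
      exact (le_iSup g x).trans (hG ▸ hs')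
    simp [e1, e2]

lemma amgm {t : ℝ} (ht0 : 0 < t) (ht1 : t < 1) (a b : ℝ≥0∞) :
    a ^ (1 - t) * b ^ t ≤ ENNReal.ofReal (1 - t) * a + ENNReal.ofReal t * b := by
  have ht1' : 0 < 1 - t := by linarith
  rcases eq_or_ne a ∞ with ha | ha
  · rw [ha, ENNReal.mul_top (by simpa using ht1)]; simp
  rcases eq_or_ne b ∞ with hb | hb
  · rw [hb, ENNReal.mul_top (by simpa using ht0)]; simp
  lift a to NNReal using ha
  lift b to NNReal using hb
  have := NNReal.geom_mean_le_arith_mean2_weighted (1 - t).toNNReal t.toNNReal a b (by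
    rw [← Real.toNNReal_add ht1'.le ht0.le]; simp)
  rw [Real.coe_toNNReal _ ht1'.le, Real.coe_toNNReal _ ht0.le] at this
  rw [← ENNReal.coe_rpow_of_nonneg _ ht1'.le, ← ENNReal.coe_rpow_of_nonneg _ ht0.le]
  unfold ENNReal.ofReal
  exact_mod_cast this

lemma pl_bounded {t : ℝ} (ht0 : 0 < t) (ht1 : t < 1) {f g h : ℝ → ℝ≥0∞} (hf : Measurable f)
    (hg : Measurable g) (hh : Measurable h) (hF : ⨆ x, f x ≠ ∞) (hG : ⨆ x, g x ≠ ∞)
    (H : ∀ x y, f x ^ (1 - t) * g y ^ t ≤ h ((1 - t) * x + t * y)) :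
    (∫⁻ x, f x) ^ (1 - t) * (∫⁻ x, g x) ^ t ≤ ∫⁻ x, h x := by
  have ht1' : 0 < 1 - t := by linarith
  set F := ⨆ x, f x with hFd
  set G := ⨆ x, g x with hGd
  rcases eq_or_ne F 0 with hF0 | hF0
  · have : f = fun _ => 0 := funext fun x => le_antisymm (hF0 ▸ le_iSup f x) bot_le
    simp [this, ENNReal.zero_rpow_of_pos ht1']
  rcases eq_or_ne G 0 with hG0 | hG0
  · have : g = fun _ => 0 := funext fun x => le_antisymm (hG0 ▸ le_iSup g x) bot_le
    simp [this, ENNReal.zero_rpow_of_pos ht0]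
  set c : ℝ≥0∞ := F⁻¹ ^ (1 - t) * G⁻¹ ^ t with hc
  have hc0 : c ≠ 0 := mul_ne_zero
    (ENNReal.rpow_pos (ENNReal.inv_pos.2 hF) (ENNReal.inv_ne_top.2 hF0)).ne'
    (ENNReal.rpow_pos (ENNReal.inv_pos.2 hG) (ENNReal.inv_ne_top.2 hG0)).ne'
  have hct : c ≠ ∞ := ENNReal.mul_ne_top
    (ENNReal.rpow_ne_top_of_nonneg ht1'.le (ENNReal.inv_ne_top.2 hF0))
    (ENNReal.rpow_ne_top_of_nonneg ht0.le (ENNReal.inv_ne_top.2 hG0))
  have hmul : ∀ a b : ℝ≥0∞, (F⁻¹ * a) ^ (1 - t) * (G⁻¹ * b) ^ t = c * (a ^ (1 - t) * b ^ t) := by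
    intro a b
    rw [ENNReal.mul_rpow_of_nonneg _ _ ht1'.le, ENNReal.mul_rpow_of_nonneg _ _ ht0.le, hc]
    ring
  have h1 := pl_normalized ht0 ht1 (f := fun x => F⁻¹ * f x) (g := fun x => G⁻¹ * g x)
    (h := fun x => c * h x) (hf.const_mul _) (hg.const_mul _) (hh.const_mul _)
    (by rw [← ENNReal.mul_iSup, ENNReal.inv_mul_cancel hF0 hF])
    (by rw [← ENNReal.mul_iSup, ENNReal.inv_mul_cancel hG0 hG])
    (fun x y => by rw [hmul]; exact mul_le_mul_right (H x y) _)
  have h2 := (amgm ht0 ht1 _ _).trans h1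
  rw [lintegral_const_mul _ hf, lintegral_const_mul _ hg, lintegral_const_mul _ hh, hmul] at h2
  exact (ENNReal.mul_le_mul_iff_right hc0 hct).1 h2

lemma lintegral_eq_iSup_min {f : ℝ → ℝ≥0∞} (hf : Measurable f) :
    ∫⁻ x, f x = ⨆ n : ℕ, ∫⁻ x, min (f x) n := by
  rw [← lintegral_iSup (fun n => hf.min measurable_const)
    (fun m n hmn x => min_le_min_left _ (by exact_mod_cast hmn))]
  refine lintegral_congr fun x => ?_
  have := inf_iSup_eq (f x) (fun n : ℕ => (n : ℝ≥0∞))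
  rw [ENNReal.iSup_natCast, inf_top_eq] at this
  exact this

/-- The one-dimensional Prékopa–Leindler inequality. -/
theorem pl_one {t : ℝ} (ht0 : 0 < t) (ht1 : t < 1) {f g h : ℝ → ℝ≥0∞} (hf : Measurable f)
    (hg : Measurable g) (hh : Measurable h)
    (H : ∀ x y, f x ^ (1 - t) * g y ^ t ≤ h ((1 - t) * x + t * y)) :
    (∫⁻ x, f x) ^ (1 - t) * (∫⁻ x, g x) ^ t ≤ ∫⁻ x, h x := by
  have ht1' : 0 < 1 - t := by linarith
  have hr : ∀ {s : ℝ}, 0 < s → ∀ a : ℕ → ℝ≥0∞, (⨆ n, a n) ^ s = ⨆ n, a n ^ s := by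
    intro s hs a
    exact (ENNReal.orderIsoRpow s hs).map_iSup a
  rw [lintegral_eq_iSup_min hf, lintegral_eq_iSup_min hg, hr ht1', hr ht0, ENNReal.iSup_mul]
  refine iSup_le fun m => ?_
  rw [ENNReal.mul_iSup]
  refine iSup_le fun n => ?_
  refine pl_bounded ht0 ht1 (hf.min measurable_const) (hg.min measurable_const) hh
    (ne_top_of_le_ne_top (ENNReal.natCast_ne_top m) (iSup_le fun x => min_le_right _ _))
    (ne_top_of_le_ne_top (ENNReal.natCast_ne_top n) (iSup_le fun x => min_le_right _ _))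
    fun x y => le_trans ?_ (H x y)
  gcongr <;> exact min_le_left _ _

/-- The Prékopa–Leindler property of a measure on a real vector space. -/
def HasPL {X : Type*} [MeasurableSpace X] [AddCommGroup X] [Module ℝ X] (μ : Measure X)
    (t : ℝ) : Prop :=
  ∀ f g h : X → ℝ≥0∞, Measurable f → Measurable g → Measurable h →
    (∀ x y, f x ^ (1 - t) * g y ^ t ≤ h ((1 - t) • x + t • y)) →
    (∫⁻ x, f x ∂μ) ^ (1 - t) * (∫⁻ x, g x ∂μ) ^ t ≤ ∫⁻ x, h x ∂μ

lemma HasPL.prod {X Y : Type*} [MeasurableSpace X] [AddCommGroup X] [Module ℝ X]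
    [MeasurableSpace Y] [AddCommGroup Y] [Module ℝ Y] {μ : Measure X} {ν : Measure Y}
    [SFinite ν] {t : ℝ} (hμ : HasPL μ t) (hν : HasPL ν t) : HasPL (μ.prod ν) t := by
  intro f g h hf hg hh H
  rw [lintegral_prod _ hf.aemeasurable, lintegral_prod _ hg.aemeasurable,
    lintegral_prod _ hh.aemeasurable]
  refine hμ _ _ _ hf.lintegral_prod_right' hg.lintegral_prod_right' hh.lintegral_prod_right'
    fun x x' => ?_
  exact hν _ _ _ (hf.comp measurable_prodMk_left) (hg.comp measurable_prodMk_left)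
    (hh.comp measurable_prodMk_left) fun y y' => H (x, y) (x', y')

lemma HasPL.of_map {X Y : Type*} [MeasurableSpace X] [AddCommGroup X] [Module ℝ X]
    [MeasurableSpace Y] [AddCommGroup Y] [Module ℝ Y] {μ : Measure X} {ν : Measure Y}
    {t : ℝ} (hμ : HasPL μ t) {e : X → Y} (he : MeasurePreserving e μ ν)
    (hlin : ∀ x y, e ((1 - t) • x + t • y) = (1 - t) • e x + t • e y) : HasPL ν t := by
  intro f g h hf hg hh H
  rw [← he.lintegral_comp hf, ← he.lintegral_comp hg, ← he.lintegral_comp hh]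
  refine hμ _ _ _ (hf.comp he.measurable) (hg.comp he.measurable) (hh.comp he.measurable)
    fun x y => ?_
  rw [hlin]; exact H _ _

theorem hasPL_real {t : ℝ} (ht0 : 0 < t) (ht1 : t < 1) : HasPL (volume : Measure ℝ) t :=
  fun _ _ _ hf hg hh H => pl_one ht0 ht1 hf hg hh H

theorem hasPL_pi {t : ℝ} (ht0 : 0 < t) (ht1 : t < 1) (d : ℕ) :
    HasPL (volume : Measure (Fin d → ℝ)) t := by
  induction d with
  | zero =>
    intro f g h _ _ _ H
    rw [volume_pi, Measure.pi_of_empty]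
    simp only [lintegral_dirac]
    convert H _ _ using 2
  | succ n ih =>
    refine ((hasPL_real ht0 ht1).prod ih).of_map
      ((volume_preserving_piFinSuccAbove (fun _ : Fin (n + 1) => ℝ) 0).symm _) fun x y => ?_
    ext i
    refine Fin.cases ?_ (fun j => ?_) i <;>
      simp [MeasurableEquiv.piFinSuccAbove_symm_apply, Fin.insertNthEquiv]

theorem hasPL_euclidean {t : ℝ} (ht0 : 0 < t) (ht1 : t < 1) (d : ℕ) :
    HasPL (volume : Measure (EuclideanSpace ℝ (Fin d))) t :=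
  (hasPL_pi ht0 ht1 d).of_map (PiLp.volume_preserving_toLp (Fin d)) fun _ _ => rfl

/-- **Prékopa–Leindler inequality** on Euclidean space. -/
theorem prekopa_leindler {d : ℕ} {t : ℝ} (ht0 : 0 < t) (ht1 : t < 1)
    (f g h : EuclideanSpace ℝ (Fin d) → ℝ≥0∞) (hf : Measurable f) (hg : Measurable g)
    (hh : Measurable h) (H : ∀ x y, f x ^ (1 - t) * g y ^ t ≤ h ((1 - t) • x + t • y)) :
    (∫⁻ x, f x) ^ (1 - t) * (∫⁻ x, g x) ^ t ≤ ∫⁻ x, h x :=
  hasPL_euclidean ht0 ht1 d f g h hf hg hh H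

end Crest.Agent.Lib.PL
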